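import Claimed.Agent.R322.Sx.Trunc

/-!
# R322 / Sx / Ctl / Kernel : the Gaussian kernel comparison used for controlled scales

`G_v(z) (1 + |u|²)^j ≤ C e^{-|u|²/8} G_{2v}(z)`, `u = z / v`.  Consequently all polynomial moments and
all tails of a Gaussian average at the scale `v` are dominated by the plain Gaussian average at the
scale `2 v`: no annular summation is needed.
-/

set_option autoImplicit false

namespace Claimed.Agent.R322.Sx

open MeasureTheory Set Metric Filter Topology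
open scoped ENNReal NNReal InnerProductSpace

/-- `(1 + w)^j ≤ (8 (j+1))^j e^{w/4}`. -/
theorem ctl_poly_exp (j : ℕ) {w : ℝ} (hw : 0 ≤ w) :
    (1 + w) ^ j ≤ (8 * ((j : ℝ) + 1)) ^ j * Real.exp (w / 4) := by
  have hj : (0 : ℝ) < 8 * ((j : ℝ) + 1) := by positivity
  have h1 : 1 + w ≤ 8 * ((j : ℝ) + 1) * Real.exp (w / (8 * ((j : ℝ) + 1))) := by
    have h2 := Real.add_one_le_exp (w / (8 * ((j : ℝ) + 1)))
    have h3 : 8 * ((j : ℝ) + 1) * (w / (8 * ((j : ℝ) + 1)) + 1) = w + 8 * ((j : ℝ) + 1) := by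
      field_simp
    have h4 : 8 * ((j : ℝ) + 1) * (w / (8 * ((j : ℝ) + 1)) + 1)
        ≤ 8 * ((j : ℝ) + 1) * Real.exp (w / (8 * ((j : ℝ) + 1))) :=
      mul_le_mul_of_nonneg_left h2 hj.le
    have h5 : (0 : ℝ) ≤ j := Nat.cast_nonneg j
    linarith
  calc (1 + w) ^ j ≤ (8 * ((j : ℝ) + 1) * Real.exp (w / (8 * ((j : ℝ) + 1)))) ^ j :=
        pow_le_pow_left₀ (by linarith) h1 j
    _ = (8 * ((j : ℝ) + 1)) ^ j * Real.exp ((j : ℝ) * (w / (8 * ((j : ℝ) + 1)))) := by
        rw [mul_pow, ← Real.exp_nat_mul]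
    _ ≤ (8 * ((j : ℝ) + 1)) ^ j * Real.exp (w / 4) := by
        apply mul_le_mul_of_nonneg_left _ (by positivity)
        apply Real.exp_le_exp.2
        have h5 : (0 : ℝ) ≤ j := Nat.cast_nonneg j
        rw [mul_div_assoc', div_le_div_iff₀ hj (by norm_num)]
        nlinarith

/-- the constant of the kernel comparison. -/
noncomputable def kC (m j : ℕ) : ℝ := (4 : ℝ) ^ ((m : ℝ) / 2) * (8 * ((j : ℝ) + 1)) ^ j

theorem kC_pos (m j : ℕ) : 0 < kC m j := by
  unfold kC; positivity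

/-- the kernel comparison. -/
theorem ctl_kernel (m j : ℕ) (v : ℝ) (z : E m) (hv : 0 < v) :
    gauss m v z * (1 + ‖v⁻¹ • z‖ ^ 2) ^ j
      ≤ kC m j * Real.exp (-‖v⁻¹ • z‖ ^ 2 / 8) * gauss m (2 * v) z := by
  unfold kC
  set w : ℝ := ‖v⁻¹ • z‖ ^ 2 with hw
  have hw0 : 0 ≤ w := by positivity
  have hz : ‖z‖ ^ 2 = w * v ^ 2 := by
    rw [hw, norm_smul, Real.norm_eq_abs, abs_of_pos (inv_pos.2 hv)]
    field_simp
  unfold gauss
  have e1 : -‖z‖ ^ 2 / (2 * v ^ 2) = -w / 8 + -w / 8 + -(w / 4) := by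
    rw [hz]; field_simp; ring
  have e2 : -‖z‖ ^ 2 / (2 * (2 * v) ^ 2) = -w / 8 := by
    rw [hz]; field_simp; ring
  have e3 : (2 * Real.pi * (2 * v) ^ 2) ^ (-(m : ℝ) / 2)
      = (4 : ℝ) ^ (-(m : ℝ) / 2) * (2 * Real.pi * v ^ 2) ^ (-(m : ℝ) / 2) := by
    rw [← Real.mul_rpow (by norm_num) (by positivity)]
    congr 1; ring
  have e4 : (4 : ℝ) ^ ((m : ℝ) / 2) * (4 : ℝ) ^ (-(m : ℝ) / 2) = 1 := by
    rw [← Real.rpow_add (by norm_num)]
    have : (m : ℝ) / 2 + -(m : ℝ) / 2 = 0 := by ring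
    rw [this, Real.rpow_zero]
  rw [e1, e2, e3, Real.exp_add, Real.exp_add]
  set N : ℝ := (2 * Real.pi * v ^ 2) ^ (-(m : ℝ) / 2) with hN
  have hN0 : 0 ≤ N := by positivity
  have h5 := ctl_poly_exp j hw0
  have h6 : Real.exp (-(w / 4)) * (1 + w) ^ j ≤ (8 * ((j : ℝ) + 1)) ^ j := by
    calc Real.exp (-(w / 4)) * (1 + w) ^ j
        ≤ Real.exp (-(w / 4)) * ((8 * ((j : ℝ) + 1)) ^ j * Real.exp (w / 4)) :=
          mul_le_mul_of_nonneg_left h5 (Real.exp_pos _).le
      _ = (8 * ((j : ℝ) + 1)) ^ j * (Real.exp (-(w / 4)) * Real.exp (w / 4)) := by ring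
      _ = (8 * ((j : ℝ) + 1)) ^ j := by
          rw [← Real.exp_add]; simp
  calc N * (Real.exp (-w / 8) * Real.exp (-w / 8) * Real.exp (-(w / 4))) * (1 + w) ^ j
      = N * (Real.exp (-w / 8) * Real.exp (-w / 8)) * (Real.exp (-(w / 4)) * (1 + w) ^ j) := by ring
    _ ≤ N * (Real.exp (-w / 8) * Real.exp (-w / 8)) * (8 * ((j : ℝ) + 1)) ^ j :=
        mul_le_mul_of_nonneg_left h6 (by positivity)
    _ = ((4 : ℝ) ^ ((m : ℝ) / 2) * (4 : ℝ) ^ (-(m : ℝ) / 2)) *
          (N * (Real.exp (-w / 8) * Real.exp (-w / 8)) * (8 * ((j : ℝ) + 1)) ^ j) := by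
        rw [e4, one_mul]
    _ = _ := by ring

theorem ctl_integral_gauss (m : ℕ) {s : ℝ} (hs : 0 < s) (x : E m) :
    ∫ y, gauss m s (y - x) = 1 := by
  rw [integral_sub_right_eq_self (fun z => gauss m s z) x]
  unfold gauss
  rw [integral_const_mul]
  have hb : (0 : ℝ) < 1 / (2 * s ^ 2) := by positivity
  have h := GaussianFourier.integral_rexp_neg_mul_sq_norm (V := E m) hb
  have e : (fun z : E m => Real.exp (-‖z‖ ^ 2 / (2 * s ^ 2)))
      = fun z : E m => Real.exp (-(1 / (2 * s ^ 2)) * ‖z‖ ^ 2) := by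
    funext z; congr 1; field_simp
  rw [e, h]
  have e2 : Real.pi / (1 / (2 * s ^ 2)) = 2 * Real.pi * s ^ 2 := by field_simp
  rw [e2, ← Real.rpow_add (by positivity)]
  simp
  ring_nf
  simp

theorem ctl_integrable_gauss (m : ℕ) {s : ℝ} (hs : 0 < s) (x : E m) :
    Integrable (fun y : E m => gauss m s (y - x)) :=
  integrable_of_integral_eq_one (ctl_integral_gauss m hs x)

/-- the weight `ker χ v x · (1 + |u|²)^j`. -/
noncomputable def kerP {m : ℕ} (χ : E m → ℝ) (v : ℝ) (x : E m) (j : ℕ) : E m → ℝ :=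
  fun y => Sys.ker χ v x y * (1 + ‖uu x v y‖ ^ 2) ^ j

theorem kerP_nonneg {m : ℕ} {χ : E m → ℝ} (h0 : ∀ y, 0 ≤ χ y) (v : ℝ) (x : E m) (j : ℕ) (y : E m) :
    0 ≤ kerP χ v x j y := by
  unfold kerP Sys.ker
  have := h0 y
  have := cmpl_gauss_nonneg m v (y - x)
  positivity

theorem kerP_le {m : ℕ} {χ : E m → ℝ} (h0 : ∀ y, 0 ≤ χ y) {v : ℝ} (hv : 0 < v) (x : E m) (j : ℕ)
    (y : E m) :
    kerP χ v x j y ≤ kC m j * Real.exp (-‖uu x v y‖ ^ 2 / 8) * Sys.ker χ (2 * v) x y := by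
  unfold kerP Sys.ker uu
  have h := ctl_kernel m j v (y - x) hv
  calc χ y * gauss m v (y - x) * (1 + ‖v⁻¹ • (y - x)‖ ^ 2) ^ j
      = χ y * (gauss m v (y - x) * (1 + ‖v⁻¹ • (y - x)‖ ^ 2) ^ j) := by ring
    _ ≤ χ y * (kC m j * Real.exp (-‖v⁻¹ • (y - x)‖ ^ 2 / 8) * gauss m (2 * v) (y - x)) :=
        mul_le_mul_of_nonneg_left h (h0 y)
    _ = _ := by ring

theorem kerP_le' {m : ℕ} {χ : E m → ℝ} (h0 : ∀ y, 0 ≤ χ y) {v : ℝ} (hv : 0 < v) (x : E m) (j : ℕ)
    (y : E m) : kerP χ v x j y ≤ kC m j * Sys.ker χ (2 * v) x y := by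
  refine (kerP_le h0 hv x j y).trans ?_
  have h1 : Real.exp (-‖uu x v y‖ ^ 2 / 8) ≤ 1 := by
    apply Real.exp_le_one_iff.2
    have := sq_nonneg ‖uu x v y‖
    linarith
  have h2 : 0 ≤ Sys.ker χ (2 * v) x y := mul_nonneg (h0 y) (cmpl_gauss_nonneg m _ _)
  have h3 := kC_pos m j
  calc kC m j * Real.exp (-‖uu x v y‖ ^ 2 / 8) * Sys.ker χ (2 * v) x y
      ≤ kC m j * 1 * Sys.ker χ (2 * v) x y := by gcongr
    _ = _ := by ring

theorem kerP_continuous {m : ℕ} {χ : E m → ℝ} (hχ : Continuous χ) (v : ℝ) (x : E m) (j : ℕ) :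
    Continuous (kerP χ v x j) := by
  unfold kerP Sys.ker uu
  have := cmpl_continuous_gauss m v
  fun_prop

section Root

variable {m n : ℕ} {S : Sys m n} {Q : ℕ} {κ Cg T : ℝ} {χ : E m → ℝ}

theorem ctl_ker_nonneg (hR : Root S Q κ Cg T χ) (r : ℝ) (x y : E m) : 0 ≤ Sys.ker χ r x y :=
  mul_nonneg (hR.cut.nonneg y) (cmpl_gauss_nonneg m _ _)

theorem ctl_ker_integrable (hR : Root S Q κ Cg T χ) (r : ℝ) (x : E m) :
    Integrable (Sys.ker χ r x) (S.tau Q) :=
  cmpl_integrable_chi_mul hR (f := fun y => gauss m r (y - x))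
    ((cmpl_continuous_gauss m r).comp (continuous_id.sub continuous_const)).measurable
    ((2 * Real.pi * r ^ 2) ^ (-(m : ℝ) / 2)) (fun y => by
      rw [abs_of_nonneg (cmpl_gauss_nonneg m r _)]
      exact cmpl_gauss_le m r _)

/-- a weight dominated by a Gaussian kernel is `τ`-integrable. -/
theorem ctl_root_integrable (hR : Root S Q κ Cg T χ) {w : E m → ℝ} (hw : Measurable w)
    (h0 : ∀ y, 0 ≤ w y) {c r : ℝ} (x : E m) (hle : ∀ y, w y ≤ c * Sys.ker χ r x y) :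
    Integrable w (S.tau Q) := by
  refine ((ctl_ker_integrable hR r x).const_mul c).mono' hw.aestronglyMeasurable
    (Eventually.of_forall fun y => ?_)
  rw [Real.norm_of_nonneg (h0 y)]
  exact hle y

/-- `τ`-integral of a weight dominated by a Gaussian kernel. -/
theorem ctl_root_tau (hR : Root S Q κ Cg T χ) {w : E m → ℝ} (hw : Measurable w)
    (h0 : ∀ y, 0 ≤ w y) {c r : ℝ} (x : E m) (hle : ∀ y, w y ≤ c * Sys.ker χ r x y) :
    ∫ y, w y ∂(S.tau Q) ≤ c * S.tauav Q χ r x := by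
  unfold Sys.tauav
  rw [← integral_const_mul]
  exact integral_mono (ctl_root_integrable hR hw h0 x hle) ((ctl_ker_integrable hR r x).const_mul c) hle

theorem ctl_absM_le (S : Sys m n) (Q : ℕ) : S.absM Q ≤ S.tau Q := by
  unfold Sys.tau
  rw [add_assoc]
  exact Measure.le_add_right le_rfl

/-- `μ`-integral of a weight dominated by a Gaussian kernel: `ν ≤ |M| + Q vol_S`. -/
theorem ctl_root_nu (hR : Root S Q κ Cg T χ) {w : E m → ℝ} (hw : Measurable w)
    (h0 : ∀ y, 0 ≤ w y) {c r : ℝ} (hc : 0 ≤ c) (hr : 0 < r) (x : E m)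
    (hle : ∀ y, w y ≤ c * Sys.ker χ r x y) :
    ∫ q, w q.1 ∂S.μ ≤ c * (S.tauav Q χ r x + 2 * Q) := by
  have hV := hR.hyp.valid
  have hsupp : Function.support w ⊆ closedBall (0 : E m) 3 := by
    intro y hy
    by_contra h
    apply hy
    have h1 := hle y
    unfold Sys.ker at h1
    rw [cmpl_chi_zero hR h] at h1
    have := h0 y
    simp at h1
    linarith
  have hb : ∀ y, |w y| ≤ c * (2 * Real.pi * r ^ 2) ^ (-(m : ℝ) / 2) := by
    intro y
    rw [abs_of_nonneg (h0 y)]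
    refine (hle y).trans (mul_le_mul_of_nonneg_left ?_ hc)
    unfold Sys.ker
    calc χ y * gauss m r (y - x) ≤ 1 * (2 * Real.pi * r ^ 2) ^ (-(m : ℝ) / 2) :=
          mul_le_mul (hR.cut.le_one y) (cmpl_gauss_le m r _) (cmpl_gauss_nonneg m r _) zero_le_one
      _ = _ := one_mul _
  have h1 := hV.abs_intM_le Q hw (isCompact_closedBall _ _) (cmpl_K_subset hR) hsupp _ hb
  have h2 : ∫ y, |w y| ∂(S.absM Q) ≤ c * S.tauav Q χ r x := by
    have e : (fun y => |w y|) = w := by funext y; exact abs_of_nonneg (h0 y)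
    rw [e]
    refine le_trans ?_ (ctl_root_tau hR hw h0 x hle)
    exact integral_mono_measure (ctl_absM_le S Q) (Eventually.of_forall h0)
      (ctl_root_integrable hR hw h0 x hle)
  have h3 : ∫ y in S.Ω, w y * S.a y ≤ 2 * c := by
    have hg := (ctl_integrable_gauss m hr x).const_mul (2 * c)
    calc ∫ y in S.Ω, w y * S.a y ≤ ∫ y in S.Ω, 2 * c * gauss m r (y - x) := by
          apply integral_mono_of_nonneg
          · refine Eventually.of_forall fun y => mul_nonneg (h0 y) ?_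
            have := hV.a_lower y
            linarith
          · exact hg.integrableOn
          · refine Eventually.of_forall fun y => ?_
            have h4 : w y ≤ c * gauss m r (y - x) := by
              refine (hle y).trans (mul_le_mul_of_nonneg_left ?_ hc)
              unfold Sys.ker
              calc χ y * gauss m r (y - x) ≤ 1 * gauss m r (y - x) :=
                    mul_le_mul_of_nonneg_right (hR.cut.le_one y) (cmpl_gauss_nonneg m r _)
                _ = _ := one_mul _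
            calc w y * S.a y ≤ (c * gauss m r (y - x)) * 2 :=
                  mul_le_mul h4 (hV.a_upper y) (by have := hV.a_lower y; linarith)
                    (mul_nonneg hc (cmpl_gauss_nonneg m r _))
              _ = _ := by ring
      _ ≤ ∫ y, 2 * c * gauss m r (y - x) := by
          apply setIntegral_le_integral hg
          exact Eventually.of_forall fun y => mul_nonneg (by linarith) (cmpl_gauss_nonneg m r _)
      _ = 2 * c := by
          rw [integral_const_mul, ctl_integral_gauss m hr x, mul_one]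
  have h4 : ∫ q, w q.1 ∂S.μ = S.intM Q w + Q * ∫ y in S.Ω, w y * S.a y := by
    unfold Sys.intM; ring
  have h5 := le_abs_self (S.intM Q w)
  have hQ0 : (0 : ℝ) ≤ Q := Nat.cast_nonneg Q
  have h6 : (Q : ℝ) * ∫ y in S.Ω, w y * S.a y ≤ Q * (2 * c) := mul_le_mul_of_nonneg_left h3 hQ0
  rw [h4]
  nlinarith

end Root


/-- the constant of the Gaussian lower bound. -/
noncomputable def bC (m : ℕ) : ℝ := (2 * Real.pi) ^ ((m : ℝ) / 2) * Real.exp (9 / 2)

theorem bC_pos (m : ℕ) : 0 < bC m := by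
  unfold bC
  have := Real.pi_pos
  positivity

section Root

variable {m n : ℕ} {S : Sys m n} {Q : ℕ} {κ Cg T : ℝ} {χ : E m → ℝ}

theorem ctl_root_ball (hR : Root S Q κ Cg T χ) {x : E m} {r : ℝ} (hr : 0 < r)
    (hsub : ball x r ⊆ ball (0 : E m) 2) :
    S.tau Q (ball x r) ≤ ENNReal.ofReal (bC m * r ^ m * S.tauav Q χ r x) := by
  have hfin : S.tau Q (ball x r) ≠ ∞ :=
    (((measure_mono (hsub.trans (ball_subset_ball (by norm_num)))).trans hR.hyp.small).trans_lt
      ENNReal.ofReal_lt_top).ne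
  set c0 : ℝ := (2 * Real.pi * r ^ 2) ^ (-(m : ℝ) / 2) * Real.exp (-(9 / 2)) with hc0
  have hc0pos : 0 < c0 := mul_pos (ch_norm_pos m hr) (Real.exp_pos _)
  have h1 : c0 * (S.tau Q (ball x r)).toReal ≤ S.tauav Q χ r x := by
    calc c0 * (S.tau Q (ball x r)).toReal = ∫ _y in ball x r, c0 ∂(S.tau Q) := by
          rw [setIntegral_const, smul_eq_mul, mul_comm]; rfl
      _ ≤ ∫ y in ball x r, Sys.ker χ r x y ∂(S.tau Q) := by
          apply setIntegral_mono_on (integrableOn_const hfin) (ctl_ker_integrable hR r x).integrableOn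
            measurableSet_ball
          intro y hy
          unfold Sys.ker
          rw [hR.cut.eq_one y (hsub hy), one_mul]
          apply ch_gauss_ge m hr
          rw [mem_ball, dist_eq_norm] at hy
          linarith
      _ ≤ S.tauav Q χ r x :=
          setIntegral_le_integral (ctl_ker_integrable hR r x)
            (Eventually.of_forall fun y => ctl_ker_nonneg hR r x y)
  have e : bC m * r ^ m * c0 = 1 := by
    rw [hc0, ch_norm_eq m hr]
    unfold bC
    have hpi := Real.pi_pos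
    have h2 : Real.exp (9 / 2) * Real.exp (-(9 / 2)) = 1 := by rw [← Real.exp_add]; simp
    have h3 : (0 : ℝ) < (2 * Real.pi) ^ ((m : ℝ) / 2) * r ^ m := by positivity
    calc (2 * Real.pi) ^ ((m : ℝ) / 2) * Real.exp (9 / 2) * r ^ m
          * (((2 * Real.pi) ^ ((m : ℝ) / 2) * r ^ m)⁻¹ * Real.exp (-(9 / 2)))
        = ((2 * Real.pi) ^ ((m : ℝ) / 2) * r ^ m) * ((2 * Real.pi) ^ ((m : ℝ) / 2) * r ^ m)⁻¹
          * (Real.exp (9 / 2) * Real.exp (-(9 / 2))) := by ring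
      _ = 1 := by rw [h2, mul_inv_cancel₀ h3.ne', one_mul]
  rw [← ENNReal.ofReal_toReal hfin]
  apply ENNReal.ofReal_le_ofReal
  have h4 : 0 < bC m * r ^ m := mul_pos (bC_pos m) (by positivity)
  calc (S.tau Q (ball x r)).toReal = bC m * r ^ m * (c0 * (S.tau Q (ball x r)).toReal) := by
        rw [← mul_assoc, e, one_mul]
    _ ≤ bC m * r ^ m * S.tauav Q χ r x := mul_le_mul_of_nonneg_left h1 h4.le

end Root

/-- the rates needed for controlled scales. -/
theorem ctl_rate (m Q : ℕ) (hQ : 1 ≤ Q) (N : ℝ) : ∀ᶠ T in atTop, 2 ≤ T ∧ N ≤ T ∧ N ≤ FQ Q T ∧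
    1 ≤ FQ Q T ∧ FQ Q T ^ 2 ≤ T / 2 ∧ 0 < rhoT Q T ∧ rhoT Q T ≤ 1 ∧
    Real.exp (FQ Q T ^ 2 - T) ≤ (rhoT Q T / T ^ 4) ^ m := by
  have h1 : ∀ᶠ T in atTop, Real.log T ^ 1 / FQ Q T < 1 :=
    (log_pow_div_FQ Q 1).eventually (gt_mem_nhds one_pos)
  have h2 : ∀ᶠ T in atTop, FQ Q T ^ 2 / T < 1 / (14 * (m : ℝ) + 2) :=
    (FQ_pow_div Q hQ 2).eventually (gt_mem_nhds (by positivity))
  filter_upwards [h1, h2, cmpl_rate_F Q 1, cmpl_rate_F Q N, eventually_ge_atTop 2,
    eventually_ge_atTop N] with T h1 h2 hF hFN hT hTN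
  have hT0 : 0 < T := by linarith
  have hF0 : 0 < FQ Q T := by linarith
  have hρ := cmpl_rhoT_pos Q hT0
  have hm0 : (0 : ℝ) ≤ m := Nat.cast_nonneg m
  rw [pow_one, div_lt_one hF0] at h1
  rw [div_lt_div_iff₀ hT0 (by positivity), one_mul] at h2
  have h3 : FQ Q T ≤ FQ Q T ^ 2 := by nlinarith
  have hF2 : 0 ≤ FQ Q T ^ 2 := by positivity
  refine ⟨hT, hTN, hFN, hF, by nlinarith, hρ, ?_, ?_⟩
  · unfold rhoT etaT
    rw [div_le_one (by positivity)]
    have h4 : Real.exp (-2 * FQ Q T) ≤ 1 := Real.exp_le_one_iff.2 (by linarith)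
    have h5 : Real.exp (-2 * FQ Q T) ^ 4 ≤ 1 := pow_le_one₀ (Real.exp_pos _).le h4
    nlinarith
  · have e : (rhoT Q T / T ^ 4) ^ m = Real.exp ((m : ℝ) * (-(8 * FQ Q T + 6 * Real.log T))) := by
      rw [Real.exp_nat_mul]
      congr 1
      have : -(8 * FQ Q T + 6 * Real.log T) = Real.log (rhoT Q T / T ^ 4) := by
        rw [Real.log_div hρ.ne' (by positivity), cmpl_log_rhoT Q hT0, Real.log_pow]
        push_cast; ring
      rw [this, Real.exp_log (by positivity)]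
    rw [e]
    apply Real.exp_le_exp.2
    have h4 : (m : ℝ) * (8 * FQ Q T + 6 * Real.log T) ≤ (m : ℝ) * (14 * FQ Q T ^ 2) :=
      mul_le_mul_of_nonneg_left (by linarith) hm0
    nlinarith

theorem ctl_ev_rpow (p A : ℝ) (hA : 0 < A) : ∀ᶠ L : ℝ in atTop, L ^ p * Real.exp (-L) ≤ A := by
  have h := tendsto_rpow_mul_exp_neg_mul_atTop_nhds_zero p 1 one_pos
  have h2 := h.eventually (ge_mem_nhds hA)
  filter_upwards [h2] with L hL
  simpa using hL

end Claimed.Agent.R322.Sx
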